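import Mathlib.Data.ZMod.Basic
import Mathlib.Algebra.BigOperators.Intervals
import Mathlib.Tactic

/-!
P033: how a circulant Hadamard row and its shift by half the order agree on the two parity classes.
-/

noncomputable section

namespace Vale.Agent.P033

open Finset

/-- Overlaps of two sets whose overlap numbers have odd sum. -/
lemma overlap_bound {M : ℕ} [NeZero M] (S C : Finset (ZMod M)) {s : ℕ} (hS : S.card = s)
    (hC : C.card = s)
    (hodd : ∀ t : ZMod M, t ≠ 0 →
      1 ≤ (S.filter fun r => r + t ∈ S).card + (C.filter fun r => r + t ∈ C).card) :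
    (M : ℤ) - 1 ≤ 2 * s * ((s : ℤ) - 1) := by
  have tot : ∀ T : Finset (ZMod M), ∑ t : ZMod M, (T.filter fun r => r + t ∈ T).card =
      T.card * T.card := fun T => by
    simp only [card_filter]
    rw [sum_comm, card_eq_sum_ones, sum_mul]
    refine sum_congr rfl fun r _ => ?_
    rw [Fintype.sum_equiv (Equiv.addLeft r) (fun x => if r + x ∈ T then 1 else 0)
      (fun x => if x ∈ T then 1 else 0) fun x => rfl, sum_ite_mem, univ_inter, one_mul]
  have z : ∀ T : Finset (ZMod M), (T.filter fun r => r + (0 : ZMod M) ∈ T).card = T.card := fun T =>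
    congrArg card (filter_true_of_mem fun r hr => by simpa using hr)
  have h : (univ.erase (0 : ZMod M)).card • 1 ≤ ∑ t ∈ univ.erase (0 : ZMod M),
      ((S.filter fun r => r + t ∈ S).card + (C.filter fun r => r + t ∈ C).card) :=
    card_nsmul_le_sum _ _ _ fun t ht => hodd t (ne_of_mem_erase ht)
  have e := add_sum_erase univ (fun t : ZMod M =>
    (S.filter fun r => r + t ∈ S).card + (C.filter fun r => r + t ∈ C).card) (mem_univ 0)
  simp only [sum_add_distrib, tot, z, hS, hC] at e
  rw [card_erase_of_mem (mem_univ _), card_univ, ZMod.card, smul_eq_mul, mul_one] at h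
  have hM : 1 ≤ M := NeZero.one_le
  rw [← sum_add_distrib] at e
  have e' : ((s : ℤ) + s) + ((∑ t ∈ univ.erase (0 : ZMod M), ((S.filter fun r => r + t ∈ S).card +
      (C.filter fun r => r + t ∈ C).card) : ℕ) : ℤ) = s * s + s * s := by exact_mod_cast e
  have h' : (M : ℤ) - 1 ≤ ((∑ t ∈ univ.erase (0 : ZMod M), ((S.filter fun r => r + t ∈ S).card +
      (C.filter fun r => r + t ∈ C).card) : ℕ) : ℤ) := by omega
  linarith

/-- The supports of two sequences with opposite autocorrelations, sharing an odd weight `M`. -/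
lemma pair_bound {M : ℕ} [NeZero M] (hM : Odd M) (a b : ZMod M → ℤ)
    (ha : ∀ r, a r = 0 ∨ a r = 1 ∨ a r = -1) (hb : ∀ r, b r = 0 ∨ b r = 1 ∨ b r = -1)
    (hc : ∀ t : ZMod M, t ≠ 0 → ∑ r, a r * a (r + t) + ∑ r, b r * b (r + t) = 0) {s : ℕ}
    (hsa : (univ.filter fun r => a r ≠ 0).card = s)
    (hsb : (univ.filter fun r => b r ≠ 0).card + s = M) :
    (M : ℤ) - 1 ≤ 2 * s * ((s : ℤ) - 1) := by
  set S := univ.filter fun r => a r ≠ 0
  set B := univ.filter fun r => b r ≠ 0
  refine overlap_bound S Bᶜ hsa (by rw [card_compl, ZMod.card]; omega) fun t ht => ?_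
  have par : ∀ (f : ZMod M → ℤ), (∀ r, f r = 0 ∨ f r = 1 ∨ f r = -1) →
      ((∑ r, f r * f (r + t) : ℤ) : ZMod 2) =
        (((univ.filter fun r => f r ≠ 0).filter fun r => r + t ∈ univ.filter fun r => f r ≠ 0).card
          : ZMod 2) := fun f hf => by
    rw [filter_filter, card_filter, Int.cast_sum, Nat.cast_sum]
    refine sum_congr rfl fun r _ => ?_
    rcases hf r with h1 | h1 | h1 <;> rcases hf (r + t) with h2 | h2 | h2 <;> simp [h1, h2]
  have h0 : (((S.filter fun r => r + t ∈ S).card + (B.filter fun r => r + t ∈ B).card : ℕ) :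
      ZMod 2) = 0 := by
    rw [Nat.cast_add, ← par a ha, ← par b hb, ← Int.cast_add, hc t ht, Int.cast_zero]
  rw [ZMod.natCast_eq_zero_iff_even] at h0
  have inc : (B.filter fun r => r + t ∈ B).card + 2 * Bᶜ.card =
      M + (Bᶜ.filter fun r => r + t ∈ Bᶜ).card := by
    have sh : ∑ r : ZMod M, (if r + t ∈ Bᶜ then 1 else 0) = Bᶜ.card := by
      rw [Fintype.sum_equiv (Equiv.addRight t) (fun x => if x + t ∈ Bᶜ then 1 else 0)
        (fun x => if x ∈ Bᶜ then 1 else 0) fun x => rfl, sum_ite_mem, univ_inter, card_eq_sum_ones]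
    have h1 : Bᶜ.card = ∑ r : ZMod M, if r ∈ Bᶜ then 1 else 0 := by
      rw [sum_ite_mem, univ_inter, card_eq_sum_ones]
    have hh : ∀ T : Finset (ZMod M), (T.filter fun r => r + t ∈ T).card =
        ∑ r : ZMod M, if r ∈ T ∧ r + t ∈ T then 1 else 0 := fun T => by
      rw [← card_filter]
      exact congrArg card (by ext; simp)
    rw [hh, hh, two_mul]
    nth_rewrite 1 [h1]
    have hMc : M = ∑ _r : ZMod M, 1 := by simp
    rw [← sh, ← sum_add_distrib, ← sum_add_distrib]
    refine (sum_congr rfl fun r _ => ?_).trans (sum_add_distrib.trans (congrArg (· + _) hMc.symm))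
    by_cases h1 : r ∈ B <;> by_cases h2 : r + t ∈ B <;> simp [h1, h2]
  obtain ⟨k, hk⟩ := h0
  obtain ⟨m, hm⟩ := hM
  omega

/-- The number of pairs of the parity `e` where the row agrees with its shift. -/
lemma half_shift {M : ℕ} (hMo : Odd M) (h : ZMod (4 * M) → ℤ)
    (hh : ∀ j, h j = 1 ∨ h j = -1)
    (hP : ∀ t : ZMod (4 * M), t ≠ 0 →
      ∑ j ∈ range (4 * M), h (j : ZMod (4 * M)) * h ((j : ZMod (4 * M)) + t) = 0)
    (e : ℕ) (he : e < 2) {s : ℕ}
    (hs : s = ((range (2 * M)).filter fun j : ℕ =>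
      j % 2 = e ∧ h j = h ((j + 2 * M : ℕ))).card) :
    (M : ℤ) - 1 ≤ 2 * s * ((s : ℤ) - 1) ∧
      (M : ℤ) - 1 ≤ 2 * ((M : ℤ) - s) * ((M : ℤ) - s - 1) := by
  have hMpos : 0 < M := hMo.pos
  have : NeZero M := ⟨hMpos.ne'⟩
  set G : ℕ → ℤ := fun i => (h i + h ((i + 2 * M : ℕ))) / 2
  have hG : ∀ i, G i = 0 ∨ G i = 1 ∨ G i = -1 := fun i => by
    rcases hh i with h1 | h1 <;> rcases hh ((i + 2 * M : ℕ)) with h2 | h2 <;> simp only [G, h1, h2] <;> norm_num
  have hG2 : ∀ i, 2 * G i = h i + h ((i + 2 * M : ℕ)) := fun i => by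
    rcases hh i with h1 | h1 <;> rcases hh ((i + 2 * M : ℕ)) with h2 | h2 <;> simp only [G, h1, h2] <;> norm_num
  have per1 : ∀ i, G (i + 2 * M) = G i := fun i => by
    simp only [G]
    rw [show ((i + 2 * M + 2 * M : ℕ) : ZMod (4 * M)) = (i : ℕ) by
      rw [show i + 2 * M + 2 * M = i + 4 * M by ring, Nat.cast_add, ZMod.natCast_self, add_zero],
      add_comm]
  have per : ∀ i k, G (i + 2 * M * k) = G i := fun i k => by
    induction k with
    | zero => simp
    | succ k ih => rw [show i + 2 * M * (k + 1) = i + 2 * M * k + 2 * M by ring, per1, ih]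
  have permod : ∀ i j, i % (2 * M) = j % (2 * M) → G i = G j := fun i j hij => by
    rw [← Nat.mod_add_div i (2 * M), per, hij, ← per (j % (2 * M)) (j / (2 * M)), Nat.mod_add_div]
  -- the folded row has vanishing correlations
  have corr : ∀ t, t % (2 * M) ≠ 0 → ∑ i ∈ range (2 * M), G i * G (i + t) = 0 := fun t ht => by
    have n1 : (t : ZMod (4 * M)) ≠ 0 := fun h0 => by
      rw [ZMod.natCast_eq_zero_iff] at h0
      exact ht (Nat.mod_eq_zero_of_dvd (dvd_trans (⟨2, by ring⟩ : 2 * M ∣ 4 * M) h0))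
    have n2 : ((t + 2 * M : ℕ) : ZMod (4 * M)) ≠ 0 := fun h0 => by
      rw [ZMod.natCast_eq_zero_iff] at h0
      have := Nat.mod_eq_zero_of_dvd (dvd_trans (⟨2, by ring⟩ : 2 * M ∣ 4 * M) h0)
      rw [Nat.add_mod_right] at this
      exact ht this
    have p1 := hP _ n1
    have p2 := hP _ n2
    rw [show range (4 * M) = range (2 * M + 2 * M) from congrArg range (by ring), sum_range_add]
      at p1 p2
    have key : 4 * ∑ i ∈ range (2 * M), G i * G (i + t) = 0 + 0 := by
      refine Eq.trans ?_ (congrArg₂ (· + ·) p1 p2)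
      rw [mul_sum, ← sum_add_distrib, ← sum_add_distrib, ← sum_add_distrib]
      refine sum_congr rfl fun i _ => ?_
      rw [show 4 * (G i * G (i + t)) = (2 * G i) * (2 * G (i + t)) by ring, hG2, hG2,
        show (i + t : ℕ) + 2 * M = i + (t + 2 * M) by ring]
      have e4 : ((2 * M + i + (t + 2 * M) : ℕ) : ZMod (4 * M)) = (i + t : ℕ) := by
        rw [show 2 * M + i + (t + 2 * M) = i + t + 4 * M by ring, Nat.cast_add, ZMod.natCast_self,
          add_zero]
      push_cast at e4 ⊢
      rw [e4, add_comm (2 * (M : ZMod (4 * M))) (i : ZMod (4 * M))]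
      ring_nf
    linarith
  -- the two classes
  set f : ℕ → ZMod M → ℤ := fun c r => G (2 * r.val + c)
  have hshift : ∀ c (r x : ZMod M), f c (r + x) = G (2 * r.val + c + 2 * x.val) := fun c r x => by
    refine permod _ _ ?_
    rw [ZMod.val_add, ← Nat.mul_mod_mul_left, Nat.mod_add_mod]
    exact congrArg (· % (2 * M)) (by ring)
  have split : ∀ F : ℕ → ℤ, ∑ i ∈ range (2 * M), F i =
      ∑ r : ZMod M, F (2 * r.val + 0) + ∑ r : ZMod M, F (2 * r.val + 1) := fun F => by
    have hr : ∀ c, ∑ r : ZMod M, F (2 * r.val + c) = ∑ k ∈ range M, F (2 * k + c) := fun c =>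
      sum_bij (fun r _ => r.val) (fun r _ => mem_range.2 (ZMod.val_lt r))
        (fun r _ r' _ h => ZMod.val_injective M h)
        (fun k hk => ⟨(k : ZMod M), mem_univ _, ZMod.val_natCast_of_lt (mem_range.1 hk)⟩)
        fun r _ => rfl
    rw [hr, hr]
    generalize M = m
    induction m with
    | zero => simp
    | succ m ih =>
      rw [show 2 * (m + 1) = 2 * m + 1 + 1 by ring, sum_range_succ, sum_range_succ, ih,
        sum_range_succ, sum_range_succ, add_zero]
      ring
  have hc : ∀ t : ZMod M, t ≠ 0 → ∑ r, f 0 r * f 0 (r + t) + ∑ r, f 1 r * f 1 (r + t) = 0 :=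
    fun t ht => by
      have := corr (2 * t.val) (by
        rw [Nat.mod_eq_of_lt (by have := t.val_lt; omega)]
        have := (ZMod.val_ne_zero t).2 ht
        omega)
      rw [split] at this
      simpa only [hshift] using this
  set c : ℕ → ℕ := fun k => (univ.filter fun r : ZMod M => f k r ≠ 0).card
  have weight : c 0 + c 1 = M := by
    have sq : ∑ i ∈ range (2 * M), G i * G i = M := by
      have p : ∑ j ∈ range (4 * M), h j * h j = 4 * M := by
        rw [sum_congr rfl fun (j : ℕ) _ => show h (j : ZMod (4 * M)) * h (j : ZMod (4 * M)) = (1 : ℤ)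
          by rcases hh (j : ZMod (4 * M)) with h1 | h1 <;> simp [h1]]
        simp
      have q := hP ((2 * M : ℕ)) fun h0 => by
        rw [ZMod.natCast_eq_zero_iff] at h0
        have := Nat.le_of_dvd (by omega) h0
        omega
      rw [show range (4 * M) = range (2 * M + 2 * M) from congrArg range (by ring), sum_range_add]
        at p q
      have key : 4 * ∑ i ∈ range (2 * M), G i * G i = 4 * (M : ℤ) + 0 := by
        refine Eq.trans ?_ (congrArg₂ (· + ·) p q)
        rw [mul_sum, ← sum_add_distrib, ← sum_add_distrib, ← sum_add_distrib]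
        refine sum_congr rfl fun i _ => ?_
        rw [show 4 * (G i * G i) = (2 * G i) * (2 * G i) by ring, hG2]
        have e4 : ((2 * M + i + 2 * M : ℕ) : ZMod (4 * M)) = (i : ℕ) := by
          rw [show 2 * M + i + 2 * M = i + 4 * M by ring, Nat.cast_add, ZMod.natCast_self, add_zero]
        push_cast at e4 ⊢
        rw [e4, add_comm (2 * (M : ZMod (4 * M))) (i : ZMod (4 * M))]
        ring
      linarith
    rw [split] at sq
    have hk : ∀ k, ∑ r : ZMod M, G (2 * r.val + k) * G (2 * r.val + k) = (c k : ℤ) := fun k => by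
      simp only [c, card_filter, Nat.cast_sum]
      refine sum_congr rfl fun r _ => ?_
      rcases hG (2 * r.val + k) with h1 | h1 | h1 <;> simp [f, h1]
    rw [hk, hk] at sq
    exact_mod_cast sq
  have hs : s = c e := by
    subst hs
    refine (card_bij (fun r _ => 2 * r.val + e) (fun r hr => ?_) (fun r _ r' _ h =>
      ZMod.val_injective M (show r.val = r'.val by omega)) fun j hj => ?_).symm
    · simp only [mem_filter, mem_univ, true_and] at hr
      refine mem_filter.2 ⟨mem_range.2 (by have := r.val_lt; omega), by omega, ?_⟩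
      by_contra hne
      refine hr ?_
      rcases hh ((2 * r.val + e : ℕ)) with h1 | h1 <;>
        rcases hh ((2 * r.val + e + 2 * M : ℕ)) with h2 | h2 <;> simp only [f, G, h1, h2] at hne ⊢ <;>
            first | exact absurd trivial hne | norm_num
    · obtain ⟨hj1, hj2, hj3⟩ := mem_filter.1 hj
      have hlt : j / 2 < M := by have := mem_range.1 hj1; omega
      have ej : 2 * ((j / 2 : ℕ) : ZMod M).val + e = j := by
        rw [ZMod.val_natCast_of_lt hlt]
        omega
      refine ⟨(j / 2 : ℕ), mem_filter.2 ⟨mem_univ _, ?_⟩, ej⟩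
      simp only [f, ej, G, ← hj3]
      rcases hh (j : ZMod (4 * M)) with h1 | h1 <;> simp [h1]
  have B0 := pair_bound hMo (f 0) (f 1) (fun r => hG _) (fun r => hG _) hc rfl
    (show c 1 + c 0 = M by omega)
  have B1 := pair_bound hMo (f 1) (f 0) (fun r => hG _) (fun r => hG _)
    (fun t ht => by rw [add_comm]; exact hc t ht) rfl (show c 0 + c 1 = M from weight)
  rw [hs]
  interval_cases e
  · exact ⟨B0, by rw [show (M : ℤ) - c 0 = c 1 by omega]; exact B1⟩
  · exact ⟨B1, by rw [show (M : ℤ) - c 1 = c 0 by omega]; exact B0⟩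

end Vale.Agent.P033
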